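import Vale.Agent.P072.Bdl.B1

/-! # The permanence conjecture for weakly reversible mass-action systems -/

open Vale.Agent.P072

/-- Every weakly reversible mass-action system with positive rate constants is permanent on
every positive stoichiometric class. -/
theorem Vale.Agent.Results.P072.Permanence.result {d : ℕ} (G : Network d)
    (hG : G.WeaklyReversible) (k : (Fin d → ℕ) × (Fin d → ℕ) → ℝ)
    (hk : ∀ r ∈ G.reactions, 0 < k r) (c : Fin d → ℝ) (hc : ∀ i, 0 < c i) :
    PermanentOn (G.field k) (G.posClass c) :=
  permanence G hG k hk c hc
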