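import Vale.Agent.P072.Bdl.B1

/-! # The permanence conjecture, with constant and with time-dependent rates -/

open Vale.Agent.P072

/-- Every weakly reversible mass-action system is permanent on every positive stoichiometric
class, for all positive constant rates and, uniformly, for all measurable time-dependent rates
with values in `[ε, ε⁻¹]`. -/
theorem Vale.Agent.Results.P072.PermanenceTimeDependent.result {d : ℕ} (G : Network d)
    (hG : G.WeaklyReversible) (c : Fin d → ℝ) (hc : ∀ i, 0 < c i) :
    (∀ k : (Fin d → ℕ) × (Fin d → ℕ) → ℝ, (∀ r ∈ G.reactions, 0 < k r) →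
      PermanentOn (G.field k) (G.posClass c)) ∧
    (∀ ε : ℝ, 0 < ε → G.UniformlyPermanentOn ε (G.posClass c)) :=
  ⟨fun k hk => permanence G hG k hk c hc, fun ε hε => tv_permanence G hG ε hε c hc⟩
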